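import Vale.Agent.P247.H957.Fl5

/-!
# The flat Dirac operator: bijectivity, kernel, cokernel, derivative
-/

open scoped ContDiff Topology ComplexConjugate ENNReal
open Set MeasureTheory Filter Metric Complex

noncomputable section

namespace Vale.Agent.P247.H332.FlD

open Vale.Agent.P247.H74 Vale.Agent.P247.H574 Vale.Agent.P247.H957

/-- the symbol of `∇₂ + i ∇₃` -/
def kk (ξ : ℝ × ℝ) (n : ℤ × ℤ) : ℂ :=
  I * ((2 * Real.pi * (n.1 + ξ.1) : ℝ) : ℂ) - ((2 * Real.pi * (n.2 + ξ.2) : ℝ) : ℂ)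

/-- `|k|²` -/
def KK (ξ : ℝ × ℝ) (n : ℤ × ℤ) : ℝ := 4 * Real.pi ^ 2 * ((n.1 + ξ.1) ^ 2 + (n.2 + ξ.2) ^ 2)

theorem KK_nonneg (ξ : ℝ × ℝ) (n : ℤ × ℤ) : 0 ≤ KK ξ n := by
  rw [KK]
  positivity

theorem conj_kk (ξ : ℝ × ℝ) (n : ℤ × ℤ) : conj (kk ξ n) =
    -(I * ((2 * Real.pi * (n.1 + ξ.1) : ℝ) : ℂ)) - ((2 * Real.pi * (n.2 + ξ.2) : ℝ) : ℂ) := by
  rw [kk, map_sub, map_mul, conj_I, conj_ofReal, conj_ofReal]
  ring

theorem kk_mul (ξ : ℝ × ℝ) (n : ℤ × ℤ) : kk ξ n * conj (kk ξ n) = (KK ξ n : ℂ) := by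
  rw [conj_kk, kk, KK]
  push_cast
  linear_combination (-(4 * (Real.pi : ℂ) ^ 2 * ((n.1 : ℂ) + ξ.1) ^ 2)) * I_mul_I

theorem norm_kk_sq (ξ : ℝ × ℝ) (n : ℤ × ℤ) : ‖kk ξ n‖ ^ 2 = KK ξ n := by
  have h := kk_mul ξ n
  rw [mul_conj, normSq_eq_norm_sq] at h
  exact_mod_cast h

theorem kk_eq_zero (ξ : ℝ × ℝ) (n : ℤ × ℤ) : kk ξ n = 0 ↔ KK ξ n = 0 := by
  rw [← norm_kk_sq]
  simp

theorem lam_eq (ξ : ℝ × ℝ) (i : Ix) : lam ξ i = 2 * Real.pi * (2 * i.1 + 1) + KK ξ i.2 := rfl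

/-! ### coefficients of `D1` -/

theorem repr_D1_zero (ξ : ℝ × ℝ) (w : Fin 2 → H) (j : ℕ) (n : ℤ × ℤ) :
    bas.repr (D1 Gm ξ w 0) (j, n) =
      (√(4 * Real.pi * (j + 1)) : ℂ) * (mu ξ (j + 1, n) * bas.repr (w 0) (j + 1, n)) +
        conj (kk ξ n) * (mu ξ (j, n) * bas.repr (w 1) (j, n)) := by
  have h : D1 Gm ξ w 0 = Gm ξ 0 (w 0) + I • Gm ξ 1 (w 0) - Gm ξ 2 (w 1) + I • Gm ξ 3 (w 1) := rfl
  rw [h, Am_eq]
  simp only [map_add, map_sub, map_smul, lp.coeFn_add, lp.coeFn_sub, lp.coeFn_smul, Pi.add_apply,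
    Pi.sub_apply, Pi.smul_apply, smul_eq_mul, repr_Am, repr_Gm_two, repr_Gm_three, conj_kk]
  push_cast
  linear_combination (2 * (Real.pi : ℂ) * ((n.2 : ℂ) + ξ.2) * mu ξ (j, n) *
    bas.repr (w 1) (j, n)) * I_mul_I

theorem repr_D1_one_succ (ξ : ℝ × ℝ) (w : Fin 2 → H) (j : ℕ) (n : ℤ × ℤ) :
    bas.repr (D1 Gm ξ w 1) (j + 1, n) =
      kk ξ n * (mu ξ (j + 1, n) * bas.repr (w 0) (j + 1, n)) -
        (√(4 * Real.pi * (j + 1)) : ℂ) * (mu ξ (j, n) * bas.repr (w 1) (j, n)) := by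
  have h : D1 Gm ξ w 1 = Gm ξ 2 (w 0) + I • Gm ξ 3 (w 0) - Cm ξ (w 1) := by
    rw [← Cm_eq]
    have : D1 Gm ξ w 1 = Gm ξ 2 (w 0) + I • Gm ξ 3 (w 0) + Gm ξ 0 (w 1) - I • Gm ξ 1 (w 1) := rfl
    rw [this]
    abel
  rw [h]
  simp only [map_add, map_sub, map_smul, lp.coeFn_add, lp.coeFn_sub, lp.coeFn_smul, Pi.add_apply,
    Pi.sub_apply, Pi.smul_apply, smul_eq_mul, repr_Cm_succ, repr_Gm_two, repr_Gm_three, kk]
  push_cast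
  linear_combination (2 * (Real.pi : ℂ) * ((n.2 : ℂ) + ξ.2) * mu ξ (j + 1, n) *
    bas.repr (w 0) (j + 1, n)) * I_mul_I

theorem repr_D1_one_zero (ξ : ℝ × ℝ) (w : Fin 2 → H) (n : ℤ × ℤ) :
    bas.repr (D1 Gm ξ w 1) (0, n) = kk ξ n * (mu ξ (0, n) * bas.repr (w 0) (0, n)) := by
  have h : D1 Gm ξ w 1 = Gm ξ 2 (w 0) + I • Gm ξ 3 (w 0) - Cm ξ (w 1) := by
    rw [← Cm_eq]
    have : D1 Gm ξ w 1 = Gm ξ 2 (w 0) + I • Gm ξ 3 (w 0) + Gm ξ 0 (w 1) - I • Gm ξ 1 (w 1) := rfl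
    rw [this]
    abel
  rw [h]
  simp only [map_add, map_sub, map_smul, lp.coeFn_add, lp.coeFn_sub, lp.coeFn_smul, Pi.add_apply,
    Pi.sub_apply, Pi.smul_apply, smul_eq_mul, repr_Cm_zero, repr_Gm_two, repr_Gm_three, kk]
  push_cast
  linear_combination (2 * (Real.pi : ℂ) * ((n.2 : ℂ) + ξ.2) * mu ξ (0, n) *
    bas.repr (w 0) (0, n)) * I_mul_I

theorem D1_sub (ξ : ℝ × ℝ) (w w' : Fin 2 → H) :
    D1 Gm ξ (w - w') = D1 Gm ξ w - D1 Gm ξ w' := by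
  funext i
  fin_cases i
  · show Gm ξ 0 ((w - w') 0) + I • Gm ξ 1 ((w - w') 0) - Gm ξ 2 ((w - w') 1) +
      I • Gm ξ 3 ((w - w') 1) = (Gm ξ 0 (w 0) + I • Gm ξ 1 (w 0) - Gm ξ 2 (w 1) +
      I • Gm ξ 3 (w 1)) - (Gm ξ 0 (w' 0) + I • Gm ξ 1 (w' 0) - Gm ξ 2 (w' 1) + I • Gm ξ 3 (w' 1))
    simp only [Pi.sub_apply, map_sub, smul_sub]
    abel
  · show Gm ξ 2 ((w - w') 0) + I • Gm ξ 3 ((w - w') 0) + Gm ξ 0 ((w - w') 1) -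
      I • Gm ξ 1 ((w - w') 1) = (Gm ξ 2 (w 0) + I • Gm ξ 3 (w 0) + Gm ξ 0 (w 1) -
      I • Gm ξ 1 (w 1)) - (Gm ξ 2 (w' 0) + I • Gm ξ 3 (w' 0) + Gm ξ 0 (w' 1) - I • Gm ξ 1 (w' 1))
    simp only [Pi.sub_apply, map_sub, smul_sub]
    abel

/-- `4 π (j + 1) + |k|²` -/
def dl (ξ : ℝ × ℝ) (j : ℕ) (n : ℤ × ℤ) : ℝ := 4 * Real.pi * (j + 1) + KK ξ n

theorem dl_pos (ξ : ℝ × ℝ) (j : ℕ) (n : ℤ × ℤ) : 0 < dl ξ j n := by
  have := KK_nonneg ξ n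
  rw [dl]
  positivity

theorem sqrt_mul_self (j : ℕ) : (√(4 * Real.pi * (j + 1)) : ℂ) * (√(4 * Real.pi * (j + 1)) : ℂ) =
    ((4 * Real.pi * (j + 1) : ℝ) : ℂ) := by
  rw [← ofReal_mul, Real.mul_self_sqrt (by positivity)]

/-- solutions of the homogeneous equation -/
theorem ker_coef {ξ : ℝ × ℝ} {w : Fin 2 → H} (h : D1 Gm ξ w = 0) :
    (∀ j n, bas.repr (w 0) (j + 1, n) = 0) ∧ (∀ j n, bas.repr (w 1) (j, n) = 0) ∧
      ∀ n, kk ξ n = 0 ∨ bas.repr (w 0) (0, n) = 0 := by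
  have hmu : ∀ i, (mu ξ i : ℂ) ≠ 0 := fun i => ofReal_ne_zero.2 (mu_pos ξ i).ne'
  have h0 : ∀ i, bas.repr (D1 Gm ξ w 0) i = 0 := fun i => by
    rw [h]
    simp
  have h1 : ∀ i, bas.repr (D1 Gm ξ w 1) i = 0 := fun i => by
    rw [h]
    simp
  have hd : ∀ j n, (dl ξ j n : ℂ) ≠ 0 := fun j n => ofReal_ne_zero.2 (dl_pos ξ j n).ne'
  have key : ∀ j n, (dl ξ j n : ℂ) * (mu ξ (j + 1, n) * bas.repr (w 0) (j + 1, n)) = 0 ∧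
      (dl ξ j n : ℂ) * (mu ξ (j, n) * bas.repr (w 1) (j, n)) = 0 := by
    intro j n
    have e0 := h0 (j, n)
    have e1 := h1 (j + 1, n)
    rw [repr_D1_zero] at e0
    rw [repr_D1_one_succ] at e1
    have hs := sqrt_mul_self j
    have hk := kk_mul ξ n
    rw [dl]
    push_cast at hs ⊢
    constructor
    · linear_combination (√(4 * Real.pi * (j + 1)) : ℂ) * e0 + conj (kk ξ n) * e1 -
        (mu ξ (j + 1, n) * bas.repr (w 0) (j + 1, n)) * hs -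
        (mu ξ (j + 1, n) * bas.repr (w 0) (j + 1, n)) * hk
    · linear_combination kk ξ n * e0 - (√(4 * Real.pi * (j + 1)) : ℂ) * e1 -
        (mu ξ (j, n) * bas.repr (w 1) (j, n)) * hs -
        (mu ξ (j, n) * bas.repr (w 1) (j, n)) * hk
  refine ⟨fun j n => ?_, fun j n => ?_, fun n => ?_⟩
  · have := (mul_eq_zero.1 (key j n).1).resolve_left (hd j n)
    exact (mul_eq_zero.1 this).resolve_left (hmu _)
  · have := (mul_eq_zero.1 (key j n).2).resolve_left (hd j n)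
    exact (mul_eq_zero.1 this).resolve_left (hmu _)
  · have e := h1 (0, n)
    rw [repr_D1_one_zero] at e
    rcases mul_eq_zero.1 e with h2 | h2
    · exact Or.inl h2
    · exact Or.inr ((mul_eq_zero.1 h2).resolve_left (hmu _))

end Vale.Agent.P247.H332.FlD
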