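import Vale.Agent.P247.H332.FlD.Main
import Vale.Agent.P247.H957.Fl7

/-!
# P247, Stage 2, S1: the package `FLAT`
-/

noncomputable section

namespace Vale.Agent.P247.H332.FlD

open Vale.Agent.P247.H957

theorem flat : FLAT_statement :=
  ⟨Jm, Gm, bas (0, 0, 0), fl, flD ⟨12 * Real.pi, fun ξ ξ' j => Gm_lip ξ ξ' j⟩⟩

end Vale.Agent.P247.H332.FlD
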