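import Vale.Agent.P247.H332.FlD.FlD

/-!
# The flat Dirac operator: the inverse
-/

open scoped ContDiff Topology ComplexConjugate ENNReal
open Set MeasureTheory Filter Metric Complex

noncomputable section

namespace Vale.Agent.P247.H332.FlD

open Vale.Agent.P247.H74 Vale.Agent.P247.H574 Vale.Agent.P247.H957

/-- nonzero values of `|m + t|` are bounded below -/
theorem int_lower (t : ℝ) : ∃ δ > 0, ∀ m : ℤ, (m : ℝ) + t ≠ 0 → δ ≤ |(m : ℝ) + t| := by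
  have ht : t = ⌊t⌋ + Int.fract t := (Int.floor_add_fract t).symm
  rcases (Int.fract_nonneg t).eq_or_lt with h0 | h0
  · refine ⟨1, one_pos, fun m hm => ?_⟩
    rw [ht, ← h0, add_zero] at hm ⊢
    have h1 : ((m + ⌊t⌋ : ℤ) : ℝ) ≠ 0 := by
      push_cast
      exact hm
    have h2 : (m + ⌊t⌋ : ℤ) ≠ 0 := fun h => h1 (by rw [h]; simp)
    have h3 : (1 : ℤ) ≤ |m + ⌊t⌋| := Int.one_le_abs h2
    have h4 : (1 : ℝ) ≤ |((m + ⌊t⌋ : ℤ) : ℝ)| := by exact_mod_cast h3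
    push_cast at h4
    exact h4
  · have h1 : Int.fract t < 1 := Int.fract_lt_one t
    refine ⟨min (Int.fract t) (1 - Int.fract t), lt_min h0 (by linarith), fun m _ => ?_⟩
    have h2 : (m : ℝ) + t = ((m + ⌊t⌋ : ℤ) : ℝ) + Int.fract t := by
      push_cast
      linarith
    rw [h2]
    rcases le_or_gt 0 (m + ⌊t⌋) with h3 | h3
    · have h4 : (0 : ℝ) ≤ ((m + ⌊t⌋ : ℤ) : ℝ) := by exact_mod_cast h3
      rw [abs_of_nonneg (by linarith)]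
      exact (min_le_left _ _).trans (by linarith)
    · have h4 : ((m + ⌊t⌋ : ℤ) : ℝ) ≤ -1 := by exact_mod_cast (by omega : m + ⌊t⌋ ≤ -1)
      rw [abs_of_neg (by linarith)]
      exact (min_le_right _ _).trans (by linarith)

theorem KK_lower (ξ : ℝ × ℝ) : ∃ δ > 0, ∀ n, KK ξ n ≠ 0 → δ ≤ KK ξ n := by
  obtain ⟨d1, hd1, h1⟩ := int_lower ξ.1
  obtain ⟨d2, hd2, h2⟩ := int_lower ξ.2
  refine ⟨min (4 * Real.pi ^ 2 * d1 ^ 2) (4 * Real.pi ^ 2 * d2 ^ 2), lt_min (by positivity)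
    (by positivity), fun n hn => ?_⟩
  by_cases h : (n.1 : ℝ) + ξ.1 = 0
  · have h3 : (n.2 : ℝ) + ξ.2 ≠ 0 := by
      intro h3
      apply hn
      rw [KK, h, h3]
      simp
    refine (min_le_right _ _).trans ?_
    have h4 := h2 n.2 h3
    have h5 : d2 ^ 2 ≤ ((n.2 : ℝ) + ξ.2) ^ 2 := by
      rw [← sq_abs ((n.2 : ℝ) + ξ.2)]
      exact pow_le_pow_left₀ hd2.le h4 2
    rw [KK]
    exact mul_le_mul_of_nonneg_left (by nlinarith [sq_nonneg ((n.1 : ℝ) + ξ.1)]) (by positivity)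
  · refine (min_le_left _ _).trans ?_
    have h4 := h1 n.1 h
    have h5 : d1 ^ 2 ≤ ((n.1 : ℝ) + ξ.1) ^ 2 := by
      rw [← sq_abs ((n.1 : ℝ) + ξ.1)]
      exact pow_le_pow_left₀ hd1.le h4 2
    rw [KK]
    exact mul_le_mul_of_nonneg_left (by nlinarith [sq_nonneg ((n.2 : ℝ) + ξ.2)]) (by positivity)

/-- a general weight `c / (μ d)` -/
theorem weight_le {ξ : ℝ × ℝ} {i : Ix} {c : ℂ} {d M : ℝ} (hM : 0 ≤ M) (hd : 0 ≤ d)
    (hc : ‖c‖ ^ 2 ≤ d) (h : d ≠ 0 → 1 + lam ξ i ≤ M ^ 2 * d) : ‖c / (mu ξ i * d : ℂ)‖ ≤ M := by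
  rcases hd.eq_or_lt with h0 | h0
  · rw [← h0]
    simpa using hM
  · have hmu := mu_pos ξ i
    have h1 := mu_sq ξ i
    rw [← sq_le_sq₀ (norm_nonneg _) hM, norm_div, norm_mul, norm_real, norm_real, div_pow, mul_pow,
      Real.norm_eq_abs, Real.norm_eq_abs, sq_abs, sq_abs, div_le_iff₀ (by positivity)]
    have h2 := h h0.ne'
    calc ‖c‖ ^ 2 ≤ d := hc
      _ = (mu ξ i ^ 2 * (1 + lam ξ i)) * d := by rw [h1, one_mul]
      _ ≤ (mu ξ i ^ 2 * (M ^ 2 * d)) * d := by gcongr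
      _ = M ^ 2 * (mu ξ i ^ 2 * d ^ 2) := by ring

/-- the weights of the inverse -/
def sa (ξ : ℝ × ℝ) (i : Ix) : ℂ :=
  (√(4 * Real.pi * i.1) : ℂ) / (mu ξ i * (4 * Real.pi * i.1 + KK ξ i.2 : ℝ) : ℂ)
def sb (ξ : ℝ × ℝ) (i : Ix) : ℂ :=
  conj (kk ξ i.2) / (mu ξ i * (4 * Real.pi * i.1 + KK ξ i.2 : ℝ) : ℂ)
def sc (ξ : ℝ × ℝ) (i : Ix) : ℂ :=
  kk ξ i.2 / (mu ξ i * (4 * Real.pi * (i.1 + 1) + KK ξ i.2 : ℝ) : ℂ)
def sd (ξ : ℝ × ℝ) (i : Ix) : ℂ :=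
  -(√(4 * Real.pi * (i.1 + 1)) : ℂ) / (mu ξ i * (4 * Real.pi * (i.1 + 1) + KK ξ i.2 : ℝ) : ℂ)

theorem exists_bound (ξ : ℝ × ℝ) : ∃ M : ℝ, ∀ i, ‖sa ξ i‖ ≤ M ∧ ‖sb ξ i‖ ≤ M ∧ ‖sc ξ i‖ ≤ M ∧
    ‖sd ξ i‖ ≤ M := by
  obtain ⟨δ, hδ, h⟩ := KK_lower ξ
  have hpi := Real.pi_gt_three
  set M := √(2 + (1 + 2 * Real.pi) / δ) with hM
  have hM2 : M ^ 2 = 2 + (1 + 2 * Real.pi) / δ := Real.sq_sqrt (by positivity)
  have hM0 : 0 ≤ M := Real.sqrt_nonneg _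
  have hMp : 0 ≤ (1 + 2 * Real.pi) / δ := by positivity
  have hlow : ∀ i : Ix, 4 * Real.pi * i.1 + KK ξ i.2 ≠ 0 →
      1 + lam ξ i ≤ M ^ 2 * (4 * Real.pi * i.1 + KK ξ i.2) := by
    intro i hi
    have hK := KK_nonneg ξ i.2
    rw [lam_eq, hM2]
    rcases Nat.eq_zero_or_pos i.1 with h0 | h0
    · rw [h0] at hi ⊢
      simp only [Nat.cast_zero, mul_zero, zero_add] at hi ⊢
      have h1 := h i.2 hi
      have h2 : 1 + 2 * Real.pi ≤ (1 + 2 * Real.pi) / δ * KK ξ i.2 := by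
        rw [div_mul_eq_mul_div, le_div_iff₀ hδ]
        exact mul_le_mul_of_nonneg_left h1 (by positivity)
      nlinarith
    · have h1 : (1 : ℝ) ≤ i.1 := by exact_mod_cast h0
      have h2 : 0 ≤ (1 + 2 * Real.pi) / δ * (4 * Real.pi * i.1 + KK ξ i.2) := by positivity
      nlinarith
  have hlow2 : ∀ i : Ix, 1 + lam ξ i ≤ M ^ 2 * (4 * Real.pi * (i.1 + 1) + KK ξ i.2) := by
    intro i
    have hK := KK_nonneg ξ i.2
    have h1 : (0 : ℝ) ≤ i.1 := Nat.cast_nonneg _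
    have h2 : 0 ≤ (1 + 2 * Real.pi) / δ * (4 * Real.pi * (i.1 + 1) + KK ξ i.2) := by positivity
    have h3 : 0 ≤ Real.pi * (i.1 : ℝ) := by positivity
    rw [lam_eq, hM2]
    nlinarith
  refine ⟨M, fun i => ⟨?_, ?_, ?_, ?_⟩⟩
  · have hK := KK_nonneg ξ i.2
    refine weight_le hM0 (by positivity) ?_ (hlow i)
    rw [norm_real, Real.norm_eq_abs, sq_abs, Real.sq_sqrt (by positivity)]
    linarith
  · have hK := KK_nonneg ξ i.2
    refine weight_le hM0 (by positivity) ?_ (hlow i)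
    rw [RCLike.norm_conj, norm_kk_sq]
    have : 0 ≤ 4 * Real.pi * (i.1 : ℝ) := by positivity
    linarith
  · have hK := KK_nonneg ξ i.2
    refine weight_le hM0 (by positivity) ?_ fun _ => hlow2 i
    rw [norm_kk_sq]
    have : 0 ≤ 4 * Real.pi * ((i.1 : ℝ) + 1) := by positivity
    linarith
  · have hK := KK_nonneg ξ i.2
    refine weight_le hM0 (by positivity) ?_ fun _ => hlow2 i
    rw [norm_neg, norm_real, Real.norm_eq_abs, sq_abs, Real.sq_sqrt (by positivity)]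
    linarith

/-- the inverse -/
def Sv (ξ : ℝ × ℝ) (y : Fin 2 → H) : Fin 2 → H :=
  ![bas.repr.symm (wop dn {i | 1 ≤ i.1} (sa ξ) (bas.repr (y 0)) +
      wop id univ (sb ξ) (bas.repr (y 1))),
    bas.repr.symm (wop id univ (sc ξ) (bas.repr (y 0)) + wop up univ (sd ξ) (bas.repr (y 1)))]

theorem repr_S0_succ (ξ : ℝ × ℝ) (y : Fin 2 → H) (j : ℕ) (n : ℤ × ℤ) :
    bas.repr (Sv ξ y 0) (j + 1, n) = sa ξ (j + 1, n) * bas.repr (y 0) (j, n) +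
      sb ξ (j + 1, n) * bas.repr (y 1) (j + 1, n) := by
  obtain ⟨M, hM⟩ := exists_bound ξ
  have h : Sv ξ y 0 = bas.repr.symm (wop dn {i | 1 ≤ i.1} (sa ξ) (bas.repr (y 0)) +
      wop id univ (sb ξ) (bas.repr (y 1))) := rfl
  rw [h, LinearIsometryEquiv.apply_symm_apply, lp.coeFn_add, Pi.add_apply,
    wop_apply dn_inj (fun i => (hM i).1), wop_apply id_inj (fun i => (hM i).2.1)]
  have h1 : ((j + 1, n) : Ix) ∈ {i : Ix | 1 ≤ i.1} := Nat.le_add_left 1 j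
  have h2 : dn (j + 1, n) = (j, n) := rfl
  rw [wf, indicator_of_mem h1, wf, indicator_of_mem (mem_univ _), h2]
  rfl

theorem repr_S0_zero (ξ : ℝ × ℝ) (y : Fin 2 → H) (n : ℤ × ℤ) :
    bas.repr (Sv ξ y 0) (0, n) = sb ξ (0, n) * bas.repr (y 1) (0, n) := by
  obtain ⟨M, hM⟩ := exists_bound ξ
  have h : Sv ξ y 0 = bas.repr.symm (wop dn {i | 1 ≤ i.1} (sa ξ) (bas.repr (y 0)) +
      wop id univ (sb ξ) (bas.repr (y 1))) := rfl
  rw [h, LinearIsometryEquiv.apply_symm_apply, lp.coeFn_add, Pi.add_apply,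
    wop_apply dn_inj (fun i => (hM i).1), wop_apply id_inj (fun i => (hM i).2.1)]
  have h1 : ((0, n) : Ix) ∉ {i : Ix | 1 ≤ i.1} := by simp
  rw [wf, indicator_of_notMem h1, wf, indicator_of_mem (mem_univ _), zero_add]
  rfl

theorem repr_S1 (ξ : ℝ × ℝ) (y : Fin 2 → H) (j : ℕ) (n : ℤ × ℤ) :
    bas.repr (Sv ξ y 1) (j, n) = sc ξ (j, n) * bas.repr (y 0) (j, n) +
      sd ξ (j, n) * bas.repr (y 1) (j + 1, n) := by
  obtain ⟨M, hM⟩ := exists_bound ξ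
  have h : Sv ξ y 1 = bas.repr.symm (wop id univ (sc ξ) (bas.repr (y 0)) +
      wop up univ (sd ξ) (bas.repr (y 1))) := rfl
  rw [h, LinearIsometryEquiv.apply_symm_apply, lp.coeFn_add, Pi.add_apply,
    wop_apply id_inj (fun i => (hM i).2.2.1), wop_apply up_inj (fun i => (hM i).2.2.2)]
  rw [wf, indicator_of_mem (mem_univ _), wf, indicator_of_mem (mem_univ _)]
  rfl

/-- the equation solved by `Sv`: component 0 -/
theorem D1_S_zero (ξ : ℝ × ℝ) (y : Fin 2 → H) : D1 Gm ξ (Sv ξ y) 0 = y 0 := by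
  apply bas.repr.injective
  ext i
  obtain ⟨j, n⟩ := i
  have hmu : ∀ i, (mu ξ i : ℂ) ≠ 0 := fun i => ofReal_ne_zero.2 (mu_pos ξ i).ne'
  have hd : ((dl ξ j n : ℝ) : ℂ) ≠ 0 := ofReal_ne_zero.2 (dl_pos ξ j n).ne'
  have hs := sqrt_mul_self j
  have hk := kk_mul ξ n
  rw [repr_D1_zero, repr_S0_succ, repr_S1, sa, sb, sc, sd]
  have e1 : (4 * Real.pi * ((j + 1 : ℕ) : ℝ) + KK ξ n : ℝ) = dl ξ j n := by
    rw [dl]
    push_cast
    ring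
  have e2 : (4 * Real.pi * ((j : ℝ) + 1) + KK ξ n : ℝ) = dl ξ j n := rfl
  have e3 : (4 * Real.pi * ((j + 1 : ℕ) : ℝ)) = 4 * Real.pi * ((j : ℝ) + 1) := by push_cast; rfl
  simp only [e2, e3]
  have e4 : (dl ξ j n : ℂ) = ((4 * Real.pi * ((j : ℝ) + 1) : ℝ) : ℂ) + (KK ξ n : ℂ) := by
    rw [dl]
    push_cast
    ring
  have h1 := hmu (j + 1, n)
  have h2 := hmu (j, n)
  field_simp
  rw [e4, ← hs, ← hk]
  ring

/-- the equation solved by `Sv`: component 1, upper levels -/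
theorem D1_S_succ (ξ : ℝ × ℝ) (y : Fin 2 → H) (j : ℕ) (n : ℤ × ℤ) :
    bas.repr (D1 Gm ξ (Sv ξ y) 1) (j + 1, n) = bas.repr (y 1) (j + 1, n) := by
  have hmu : ∀ i, (mu ξ i : ℂ) ≠ 0 := fun i => ofReal_ne_zero.2 (mu_pos ξ i).ne'
  have hd : ((dl ξ j n : ℝ) : ℂ) ≠ 0 := ofReal_ne_zero.2 (dl_pos ξ j n).ne'
  have hs := sqrt_mul_self j
  have hk := kk_mul ξ n
  rw [repr_D1_one_succ, repr_S0_succ, repr_S1, sa, sb, sc, sd]
  have e1 : (4 * Real.pi * ((j + 1 : ℕ) : ℝ) + KK ξ n : ℝ) = dl ξ j n := by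
    rw [dl]
    push_cast
    ring
  have e2 : (4 * Real.pi * ((j : ℝ) + 1) + KK ξ n : ℝ) = dl ξ j n := rfl
  have e3 : (4 * Real.pi * ((j + 1 : ℕ) : ℝ)) = 4 * Real.pi * ((j : ℝ) + 1) := by push_cast; rfl
  simp only [e2, e3]
  have e4 : (dl ξ j n : ℂ) = ((4 * Real.pi * ((j : ℝ) + 1) : ℝ) : ℂ) + (KK ξ n : ℂ) := by
    rw [dl]
    push_cast
    ring
  have h1 := hmu (j + 1, n)
  have h2 := hmu (j, n)
  field_simp
  rw [e4, ← hs, ← hk]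
  ring

/-- the equation solved by `Sv`: component 1, lowest level -/
theorem D1_S_low (ξ : ℝ × ℝ) (y : Fin 2 → H) (n : ℤ × ℤ) (hn : kk ξ n ≠ 0) :
    bas.repr (D1 Gm ξ (Sv ξ y) 1) (0, n) = bas.repr (y 1) (0, n) := by
  have h1 : (mu ξ (0, n) : ℂ) ≠ 0 := ofReal_ne_zero.2 (mu_pos ξ _).ne'
  have hk := kk_mul ξ n
  have hK : (KK ξ n : ℂ) ≠ 0 := by
    rw [← hk]
    exact mul_ne_zero hn ((map_ne_zero _).2 hn)
  rw [repr_D1_one_zero, repr_S0_zero, sb]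
  have e1 : (4 * Real.pi * ((0 : ℕ) : ℝ) + KK ξ n : ℝ) = KK ξ n := by simp
  simp only [e1]
  field_simp
  rw [← hk]

end Vale.Agent.P247.H332.FlD
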