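import Vale.Agent.P247.H332.FlD.Inv

/-!
# The flat Dirac operator: the fields of `FlD`
-/

open scoped ContDiff Topology ComplexConjugate ENNReal
open Set MeasureTheory Filter Metric Complex

noncomputable section

namespace Vale.Agent.P247.H332.FlD

open Vale.Agent.P247.H74 Vale.Agent.P247.H574 Vale.Agent.P247.H957

/-- the theta function -/
def th : H := bas (0, 0, 0)

theorem th_unit : ‖th‖ = 1 := bas.orthonormal.1 _

theorem repr_th (i : Ix) : bas.repr th i = if i = (0, 0, 0) then 1 else 0 := by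
  rw [th, bas.repr_self]
  by_cases h : i = (0, 0, 0)
  · subst h
    simp
  · rw [lp.single_apply_ne _ _ _ h, if_neg h]

theorem eq_smul_th {w : H} (h : ∀ i : Ix, i ≠ (0, 0, 0) → bas.repr w i = 0) :
    w = bas.repr w (0, 0, 0) • th := by
  apply bas.repr.injective
  ext i
  rw [map_smul, lp.coeFn_smul, Pi.smul_apply, repr_th, smul_eq_mul]
  by_cases hi : i = (0, 0, 0)
  · subst hi
    simp
  · rw [h i hi, if_neg hi, mul_zero]

theorem bij (ξ : ℝ × ℝ) (hξ : ∀ m n : ℤ, ξ ≠ ((m : ℝ), (n : ℝ))) (y : Fin 2 → H) :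
    ∃! w, D1 Gm ξ w = y := by
  have hk : ∀ n, kk ξ n ≠ 0 := by
    intro n h0
    rw [kk_eq_zero, KK] at h0
    have hpi : (4 * Real.pi ^ 2 : ℝ) ≠ 0 := by positivity
    have h1 := (mul_eq_zero.1 h0).resolve_left hpi
    have h2 : (n.1 : ℝ) + ξ.1 = 0 := by
      nlinarith [sq_nonneg ((n.1 : ℝ) + ξ.1), sq_nonneg ((n.2 : ℝ) + ξ.2)]
    have h3 : (n.2 : ℝ) + ξ.2 = 0 := by
      nlinarith [sq_nonneg ((n.1 : ℝ) + ξ.1), sq_nonneg ((n.2 : ℝ) + ξ.2)]
    apply hξ (-n.1) (-n.2)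
    ext
    · push_cast
      linarith
    · push_cast
      linarith
  refine ⟨Sv ξ y, ?_, ?_⟩
  · show D1 Gm ξ (Sv ξ y) = y
    funext i
    fin_cases i
    · exact D1_S_zero ξ y
    · show D1 Gm ξ (Sv ξ y) 1 = y 1
      apply bas.repr.injective
      ext i
      obtain ⟨j, n⟩ := i
      rcases j with _ | j
      · exact D1_S_low ξ y n (hk n)
      · exact D1_S_succ ξ y j n
  · intro w hw
    have h0 : D1 Gm ξ (w - Sv ξ y) = 0 := by
      rw [D1_sub, hw]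
      have : D1 Gm ξ (Sv ξ y) = y := by
        funext i
        fin_cases i
        · exact D1_S_zero ξ y
        · show D1 Gm ξ (Sv ξ y) 1 = y 1
          apply bas.repr.injective
          ext i
          obtain ⟨j, n⟩ := i
          rcases j with _ | j
          · exact D1_S_low ξ y n (hk n)
          · exact D1_S_succ ξ y j n
      rw [this, sub_self]
    obtain ⟨h1, h2, h3⟩ := ker_coef h0
    rw [← sub_eq_zero]
    funext i
    fin_cases i
    · show (w - Sv ξ y) 0 = 0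
      apply bas.repr.injective
      rw [map_zero]
      ext i
      obtain ⟨j, n⟩ := i
      rcases j with _ | j
      · exact (h3 n).resolve_left (hk n)
      · exact h1 j n
    · show (w - Sv ξ y) 1 = 0
      apply bas.repr.injective
      rw [map_zero]
      ext i
      exact h2 i.1 i.2

theorem kk_zero_iff (n : ℤ × ℤ) : kk 0 n = 0 ↔ n = (0, 0) := by
  rw [kk_eq_zero, KK]
  have hpi : (4 * Real.pi ^ 2 : ℝ) ≠ 0 := by positivity
  constructor
  · intro h0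
    have h1 := (mul_eq_zero.1 h0).resolve_left hpi
    simp only [Prod.fst_zero, Prod.snd_zero, add_zero] at h1
    have h2 : (n.1 : ℝ) = 0 := by nlinarith [sq_nonneg (n.1 : ℝ), sq_nonneg (n.2 : ℝ)]
    have h3 : (n.2 : ℝ) = 0 := by nlinarith [sq_nonneg (n.1 : ℝ), sq_nonneg (n.2 : ℝ)]
    ext
    · exact_mod_cast h2
    · exact_mod_cast h3
  · rintro rfl
    simp

/-- on `(a θ, 0)` -/
theorem D1_th (ξ : ℝ × ℝ) (a : ℂ) : D1 Gm ξ ![a • th, 0] 0 = 0 ∧
    D1 Gm ξ ![a • th, 0] 1 = (a * kk ξ (0, 0) * mu ξ (0, 0, 0)) • th := by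
  have hr : ∀ i, bas.repr ((![a • th, 0] : Fin 2 → H) 0) i = a * if i = (0, 0, 0) then 1 else 0 := by
    intro i
    show bas.repr (a • th) i = _
    rw [map_smul, lp.coeFn_smul, Pi.smul_apply, repr_th, smul_eq_mul]
  have hr1 : ∀ i, bas.repr ((![a • th, 0] : Fin 2 → H) 1) i = 0 := by
    intro i
    show bas.repr (0 : H) i = 0
    rw [map_zero]
    rfl
  constructor
  · apply bas.repr.injective
    rw [map_zero]
    ext i
    obtain ⟨j, n⟩ := i
    rw [repr_D1_zero, hr, hr1, if_neg (by simp)]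
    simp
  · apply bas.repr.injective
    ext i
    obtain ⟨j, n⟩ := i
    rw [map_smul, lp.coeFn_smul, Pi.smul_apply, repr_th, smul_eq_mul]
    rcases j with _ | j
    · rw [repr_D1_one_zero, hr]
      by_cases hn : n = (0, 0)
      · subst hn
        simp
        ring
      · rw [if_neg (by simpa [Prod.ext_iff] using hn)]
        simp
    · rw [repr_D1_one_succ, hr, hr1, if_neg (by simp)]
      simp

theorem ker (w : Fin 2 → H) : D1 Gm 0 w = 0 ↔ ∃ a : ℂ, w = ![a • th, 0] := by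
  constructor
  · intro h
    obtain ⟨h1, h2, h3⟩ := ker_coef h
    refine ⟨bas.repr (w 0) (0, 0, 0), ?_⟩
    funext i
    fin_cases i
    · show w 0 = _ • th
      refine eq_smul_th fun i hi => ?_
      obtain ⟨j, n⟩ := i
      rcases j with _ | j
      · refine (h3 n).resolve_left fun h4 => hi ?_
        rw [kk_zero_iff] at h4
        rw [h4]
      · exact h1 j n
    · show w 1 = 0
      apply bas.repr.injective
      rw [map_zero]
      ext i
      exact h2 i.1 i.2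
  · rintro ⟨a, rfl⟩
    obtain ⟨h1, h2⟩ := D1_th 0 a
    funext i
    fin_cases i
    · exact h1
    · show D1 Gm 0 ![a • th, 0] 1 = 0
      rw [h2, (kk_zero_iff (0, 0)).2 rfl]
      simp

/-- `D1 0 (Sv 0 y)` is `y` without the `θ`-component of `y 1` -/
theorem D1_S_one_zero (y : Fin 2 → H) :
    D1 Gm 0 (Sv 0 y) 1 = y 1 - bas.repr (y 1) (0, 0, 0) • th := by
  apply bas.repr.injective
  ext i
  obtain ⟨j, n⟩ := i
  rw [map_sub, map_smul, lp.coeFn_sub, lp.coeFn_smul, Pi.sub_apply, Pi.smul_apply, repr_th,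
    smul_eq_mul]
  rcases j with _ | j
  · by_cases hn : n = (0, 0)
    · subst hn
      rw [repr_D1_one_zero, (kk_zero_iff (0, 0)).2 rfl]
      simp
    · rw [D1_S_low 0 y n (fun h => hn ((kk_zero_iff n).1 h)),
        if_neg (by simpa [Prod.ext_iff] using hn)]
      simp
  · rw [D1_S_succ, if_neg (by simp)]
    simp

theorem coker (y : Fin 2 → H) :
    (∀ w, ∑ i, inner ℂ (y i) (D1 Gm 0 w i) = 0) ↔ ∃ a : ℂ, y = ![0, a • th] := by
  constructor
  · intro h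
    have h1 := h (Sv 0 y)
    rw [Fin.sum_univ_two, D1_S_zero, D1_S_one_zero] at h1
    set c := bas.repr (y 1) (0, 0, 0) with hc
    have hci : inner ℂ th (y 1) = c := by rw [hc, bas.repr_apply_apply, th]
    have h2 : inner ℂ (c • th) (y 1 - c • th) = 0 := by
      rw [inner_smul_left, inner_sub_right, inner_smul_right, hci, inner_self_eq_norm_sq_to_K,
        th_unit]
      simp
    have h3 : inner ℂ (y 1) (y 1 - c • th) = inner ℂ (y 1 - c • th) (y 1 - c • th) := by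
      rw [inner_sub_left (y 1) (c • th) (y 1 - c • th), h2, sub_zero]
    rw [h3, inner_self_eq_norm_sq_to_K, inner_self_eq_norm_sq_to_K] at h1
    have h4 : ‖y 0‖ ^ 2 + ‖y 1 - c • th‖ ^ 2 = 0 := by
      refine ofReal_eq_zero.1 ?_
      push_cast
      exact h1
    have h5 : ‖y 0‖ = 0 := by nlinarith [sq_nonneg ‖y 0‖, sq_nonneg ‖y 1 - c • th‖]
    have h6 : ‖y 1 - c • th‖ = 0 := by nlinarith [sq_nonneg ‖y 0‖, sq_nonneg ‖y 1 - c • th‖]
    refine ⟨c, ?_⟩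
    funext i
    fin_cases i
    · exact norm_eq_zero.1 h5
    · exact sub_eq_zero.1 (norm_eq_zero.1 h6)
  · rintro ⟨a, rfl⟩ w
    rw [Fin.sum_univ_two]
    show inner ℂ (0 : H) (D1 Gm 0 w 0) + inner ℂ (a • th) (D1 Gm 0 w 1) = 0
    have h1 : inner ℂ th (D1 Gm 0 w 1) = 0 := by
      have : inner ℂ th (D1 Gm 0 w 1) = bas.repr (D1 Gm 0 w 1) (0, 0, 0) := by
        rw [bas.repr_apply_apply, th]
      rw [this, repr_D1_one_zero, (kk_zero_iff (0, 0)).2 rfl, zero_mul]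
    rw [inner_zero_left, inner_smul_left, h1, mul_zero, add_zero]

theorem off : ∃ C : ℝ, ∀ ξ, ‖D1 Gm ξ ![th, 0] 0‖ ≤ C * ‖ξ‖ ^ 2 := by
  refine ⟨0, fun ξ => ?_⟩
  have h := (D1_th ξ 1).1
  rw [one_smul] at h
  rw [h, norm_zero, zero_mul]

/-- `μ` is Lipschitz at `0` -/
theorem mu_lip (ξ : ℝ × ℝ) : |mu ξ (0, 0, 0) - mu 0 (0, 0, 0)| ≤ 4 * Real.pi * ‖ξ‖ := by
  have hpi := Real.pi_pos
  set a : ℝ := 1 + 2 * Real.pi with ha
  set r : ℝ := 2 * Real.pi * (2 * ‖ξ‖) with hr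
  have hr0 : 0 ≤ r := by positivity
  have h1 : mu 0 (0, 0, 0) = (√a)⁻¹ := by
    rw [mu, lam]
    congr 2
    simp
    ring
  have h2 : mu ξ (0, 0, 0) = (√(a + 4 * Real.pi ^ 2 * (ξ.1 ^ 2 + ξ.2 ^ 2)))⁻¹ := by
    rw [mu, lam]
    congr 2
    simp
    ring
  set b : ℝ := a + 4 * Real.pi ^ 2 * (ξ.1 ^ 2 + ξ.2 ^ 2) with hb
  have hx1 : ξ.1 ^ 2 ≤ ‖ξ‖ ^ 2 := by
    rw [← sq_abs]
    exact pow_le_pow_left₀ (abs_nonneg _) (norm_fst_le ξ) 2
  have hx2 : ξ.2 ^ 2 ≤ ‖ξ‖ ^ 2 := by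
    rw [← sq_abs ξ.2]
    exact pow_le_pow_left₀ (abs_nonneg _) (norm_snd_le ξ) 2
  have hab : a ≤ b := by
    rw [hb]
    have : 0 ≤ 4 * Real.pi ^ 2 * (ξ.1 ^ 2 + ξ.2 ^ 2) := by positivity
    linarith
  have ha1 : 1 ≤ √a := Real.one_le_sqrt.2 (by rw [ha]; linarith)
  have hb1 : 1 ≤ √b := Real.one_le_sqrt.2 (by linarith)
  have hbr : √b ≤ √a + r := by
    rw [Real.sqrt_le_left (by positivity)]
    have h3 : √a ^ 2 = a := Real.sq_sqrt (by positivity)
    have h4 : 4 * Real.pi ^ 2 * (ξ.1 ^ 2 + ξ.2 ^ 2) ≤ r ^ 2 := by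
      rw [hr]
      have : 0 ≤ Real.pi ^ 2 := by positivity
      nlinarith
    nlinarith
  have hsab : √a ≤ √b := Real.sqrt_le_sqrt hab
  rw [h1, h2]
  have h5 : (√b)⁻¹ - (√a)⁻¹ = -((√b - √a) / (√a * √b)) := by
    field_simp
    ring
  rw [h5, abs_neg, abs_of_nonneg (by
    apply div_nonneg (by linarith) (by positivity)), div_le_iff₀ (by positivity)]
  have h6 : 1 ≤ √a * √b := by nlinarith
  have h7 : √b - √a ≤ r := by linarith
  have h8 : r ≤ 4 * Real.pi * ‖ξ‖ * (√a * √b) := by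
    have : r = 4 * Real.pi * ‖ξ‖ * 1 := by rw [hr]; ring
    rw [this]
    exact mul_le_mul_of_nonneg_left h6 (by positivity)
  linarith

theorem der : ∃ κ : ℂ, κ ≠ 0 ∧ ∃ C : ℝ, ∀ ξ : ℝ × ℝ,
    ‖inner ℂ th (D1 Gm ξ ![th, 0] 1) - κ * (ξ.1 + ξ.2 * I)‖ ≤ C * ‖ξ‖ ^ 2 := by
  have hpi := Real.pi_pos
  refine ⟨2 * Real.pi * I * (mu 0 (0, 0, 0) : ℂ), ?_, 16 * Real.pi ^ 2, fun ξ => ?_⟩
  · have h1 : (mu 0 (0, 0, 0) : ℂ) ≠ 0 := ofReal_ne_zero.2 (mu_pos _ _).ne'
    have h2 : (Real.pi : ℂ) ≠ 0 := ofReal_ne_zero.2 hpi.ne'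
    exact mul_ne_zero (mul_ne_zero (mul_ne_zero two_ne_zero h2) I_ne_zero) h1
  · have h := (D1_th ξ 1).2
    rw [one_smul, one_mul] at h
    rw [h, inner_smul_right, inner_self_eq_norm_sq_to_K, th_unit]
    have hk : kk ξ (0, 0) = 2 * Real.pi * I * (ξ.1 + ξ.2 * I) := by
      rw [kk]
      push_cast
      linear_combination (-(2 * (Real.pi : ℂ) * ξ.2)) * I_mul_I
    have h2 : kk ξ (0, 0) * (mu ξ (0, 0, 0) : ℂ) * ((1 : ℝ) : ℂ) ^ 2 -
        2 * Real.pi * I * (mu 0 (0, 0, 0) : ℂ) * (ξ.1 + ξ.2 * I) =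
        kk ξ (0, 0) * ((mu ξ (0, 0, 0) - mu 0 (0, 0, 0) : ℝ) : ℂ) := by
      rw [hk]
      push_cast
      ring
    have h3 : ‖kk ξ (0, 0)‖ ≤ 4 * Real.pi * ‖ξ‖ := by
      rw [hk, norm_mul, norm_mul, norm_mul, norm_I, norm_real, Real.norm_eq_abs,
        abs_of_pos hpi]
      have h4 : ‖(ξ.1 : ℂ) + ξ.2 * I‖ ≤ 2 * ‖ξ‖ := by
        refine (norm_add_le _ _).trans ?_
        rw [norm_mul, norm_I, mul_one, norm_real, norm_real]
        have := norm_fst_le ξ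
        have := norm_snd_le ξ
        linarith
      have h5 : ‖(2 : ℂ)‖ = 2 := by simp
      rw [h5]
      nlinarith [norm_nonneg ξ]
    refine le_trans (le_of_eq (congrArg norm h2)) ?_
    rw [norm_mul, norm_real, Real.norm_eq_abs]
    calc ‖kk ξ (0, 0)‖ * |mu ξ (0, 0, 0) - mu 0 (0, 0, 0)| ≤
        (4 * Real.pi * ‖ξ‖) * (4 * Real.pi * ‖ξ‖) :=
          mul_le_mul h3 (mu_lip ξ) (abs_nonneg _) (by positivity)
      _ = 16 * Real.pi ^ 2 * ‖ξ‖ ^ 2 := by ring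

/-- The structure `FlD`, up to the Lipschitz bound. -/
theorem flD (lip : ∃ C : ℝ, ∀ ξ ξ' j, ‖Gm ξ j - Gm ξ' j‖ ≤ C * ‖ξ - ξ'‖) :
    Vale.Agent.P247.H957.FlD Gm (bas (0, 0, 0)) where
  unit := th_unit
  bij := bij
  ker := ker
  coker := coker
  lip := lip
  der := der
  off := off

end Vale.Agent.P247.H332.FlD
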